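import Mathlib

/-!
Hadwiger's conjecture for graphs in which every vertex has few non-neighbours and which are not
too close to a complete graph plus a bounded set.
-/

namespace Vale.Agent.P060

open Finset

variable {V : Type*} [DecidableEq V]

/-- Removing non-adjacent pairs colours a graph with at most half of order plus clique bound. -/
theorem colour (G : SimpleGraph V) (A : Finset V) (w : ℕ)
    (hw : ∀ S ⊆ A, G.IsClique (S : Set V) → S.card ≤ w) :
    ∃ f : V → ℕ, (∀ a ∈ A, f a < (A.card + w) / 2) ∧
      ∀ a ∈ A, ∀ b ∈ A, G.Adj a b → f a ≠ f b := by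
  classical
  induction A using Finset.strongInduction with
  | _ A ih =>
    by_cases hA : G.IsClique (A : Set V)
    · refine ⟨fun a => if h : a ∈ A then (A.equivFin ⟨a, h⟩ : ℕ) else 0, fun a ha => ?_, ?_⟩
      · have := hw A subset_rfl hA
        have := (A.equivFin ⟨a, ha⟩).isLt
        simp only [dif_pos ha]
        omega
      · intro a ha b hb hab he
        simp only [dif_pos ha, dif_pos hb] at he
        exact hab.ne (congrArg Subtype.val (A.equivFin.injective (Fin.ext he)))
    · obtain ⟨u, hu, v, hv, hne, huv⟩ : ∃ u ∈ A, ∃ v ∈ A, u ≠ v ∧ ¬ G.Adj u v := by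
        by_contra h
        push Not at h
        exact hA fun u hu v hv hne => h u hu v hv hne
      have hsub : ({u, v} : Finset V) ⊆ A := by simp [insert_subset_iff, hu, hv]
      obtain ⟨f, hf, hf'⟩ := ih (A \ {u, v}) (sdiff_ssubset hsub (insert_nonempty u _))
        fun S hS => hw S (hS.trans sdiff_subset)
      have hcard : (A \ {u, v}).card + 2 = A.card := by
        rw [card_sdiff_of_subset hsub, card_pair hne]
        have := (card_pair hne).symm.le.trans (card_le_card hsub)
        omega
      refine ⟨fun a => if a ∈ ({u, v} : Finset V) then 0 else f a + 1, fun a ha => ?_, ?_⟩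
      · dsimp only
        split_ifs with h
        · omega
        · have := hf a (mem_sdiff.2 ⟨ha, h⟩)
          omega
      · intro a ha b hb hab
        dsimp only
        split_ifs with h1 h2 h2
        · simp only [mem_insert, mem_singleton] at h1 h2
          rcases h1 with rfl | rfl <;> rcases h2 with rfl | rfl
          · exact absurd hab G.irrefl
          · exact absurd hab huv
          · exact absurd hab.symm huv
          · exact absurd hab G.irrefl
        · omega
        · omega
        · have := hf' a (mem_sdiff.2 ⟨ha, h1⟩) b (mem_sdiff.2 ⟨hb, h2⟩) hab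
          omega

/-- A symmetric relation with few exceptions at each point pairs up a large set. -/
theorem pairing {g : V → V → Prop} [DecidableRel g] (hs : ∀ x y, g x y → g y x)
    (hirr : ∀ x, ¬ g x x) (R : Finset V) (D : ℕ) (hR : 2 * D < R.card)
    (hD : ∀ u ∈ R, ((R.erase u).filter fun v => ¬ g u v).card ≤ D) :
    ∀ k, 2 * k ≤ R.card → ∃ P : Finset (Finset V), P.card = k ∧
      (∀ e ∈ P, e ⊆ R ∧ ∃ x y, e = {x, y} ∧ g x y) ∧
      (P : Set (Finset V)).PairwiseDisjoint id := by
  intro k
  induction k with
  | zero => exact fun _ => ⟨∅, by simp⟩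
  | succ k ih =>
    intro hk
    obtain ⟨P, hPk, hP, hd⟩ := ih (by omega)
    let U := P.biUnion id
    have hUR : U ⊆ R := biUnion_subset.2 fun e he => (hP e he).1
    have hne : ∀ x y, g x y → x ≠ y := fun x y h he => hirr y (he ▸ h)
    have hpair : ∀ e ∈ P, e.card = 2 := fun e he => by
      obtain ⟨-, x, y, rfl, h⟩ := hP e he
      exact card_pair (hne x y h)
    have hU : U.card = 2 * k := by
      rw [card_biUnion hd]
      simp only [id]
      rw [sum_congr rfl hpair, sum_const, smul_eq_mul, hPk, mul_comm]
    have hfree : ∀ x ∈ R \ U, ∀ e ∈ P, x ∉ e := fun x hx e he hxe =>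
      (mem_sdiff.1 hx).2 (mem_biUnion.2 ⟨e, he, hxe⟩)
    by_cases hex : ∃ x ∈ R \ U, ∃ y ∈ R \ U, g x y
    · obtain ⟨x, hx, y, hy, hxy⟩ := hex
      have hnot : ({x, y} : Finset V) ∉ P := fun h => hfree x hx _ h (mem_insert_self _ _)
      refine ⟨insert {x, y} P, by rw [card_insert_of_notMem hnot, hPk], fun e he => ?_, ?_⟩
      · rcases mem_insert.1 he with rfl | he
        · exact ⟨by simp [insert_subset_iff, (mem_sdiff.1 hx).1, (mem_sdiff.1 hy).1],
            x, y, rfl, hxy⟩
        · exact hP e he
      · rw [coe_insert]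
        refine hd.insert fun f hf _ => ?_
        simp [hfree x hx f hf, hfree y hy f hf]
    · have hsd : 1 < (R \ U).card := by
        rw [card_sdiff_of_subset hUR]
        omega
      obtain ⟨u, hu, v, hv, huv⟩ := one_lt_card.1 hsd
      by_contra hcon
      have hfail : ∀ e ∈ P, (e.filter (g u)).card + (e.filter (g v)).card ≤ 2 := by
        intro e he
        obtain ⟨heR, x, y, rfl, hxy⟩ := hP e he
        have haug : ∀ a b, ({x, y} : Finset V) = {a, b} → g u a → g v b → False := by
          intro a b hab ha hb
          rw [hab] at he heR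
          have hab' : a ≠ b := fun h => by
            have := hpair _ he
            simp [h] at this
          have hau : u ≠ b := fun h => hfree u hu _ he (by simp [h])
          have hva : v ≠ a := fun h => hfree v hv _ he (by simp [h])
          have hdis : ∀ f ∈ P.erase {a, b}, a ∉ f ∧ b ∉ f := fun f hf => by
            have h := hd he (mem_erase.1 hf).2 (mem_erase.1 hf).1.symm
            simp only [Function.onFun, id, disjoint_insert_left, disjoint_singleton_left] at h
            exact h
          have h1 : ({v, b} : Finset V) ∉ P.erase {a, b} := fun h =>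
            hfree v hv _ (mem_erase.1 h).2 (mem_insert_self _ _)
          have h2 : ({u, a} : Finset V) ∉ insert {v, b} (P.erase {a, b}) := fun h => by
            rcases mem_insert.1 h with h | h
            · have : u ∈ ({v, b} : Finset V) := h ▸ mem_insert_self u _
              simp [huv, hau] at this
            · exact hfree u hu _ (mem_erase.1 h).2 (mem_insert_self _ _)
          refine hcon ⟨insert {u, a} (insert {v, b} (P.erase {a, b})), ?_, fun f hf => ?_, ?_⟩
          · rw [card_insert_of_notMem h2, card_insert_of_notMem h1, card_erase_of_mem he, hPk]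
            have : 0 < P.card := card_pos.2 ⟨_, he⟩
            omega
          · simp only [insert_subset_iff, singleton_subset_iff] at heR
            rcases mem_insert.1 hf with rfl | hf
            · exact ⟨by simp [insert_subset_iff, (mem_sdiff.1 hu).1, heR.1], u, a, rfl, ha⟩
            rcases mem_insert.1 hf with rfl | hf
            · exact ⟨by simp [insert_subset_iff, (mem_sdiff.1 hv).1, heR.2], v, b, rfl, hb⟩
            · exact hP f (mem_erase.1 hf).2
          · rw [coe_insert]
            refine Set.PairwiseDisjoint.insert ?_ fun f hf _ => ?_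
            · rw [coe_insert]
              refine (hd.subset (coe_subset.2 (erase_subset _ _))).insert fun f hf _ => ?_
              simp [hfree v hv f (mem_erase.1 hf).2, (hdis f hf).2]
            · rcases mem_insert.1 hf with rfl | hf
              · simp [huv.symm, hau.symm, hva, hab'.symm]
              · simp [hfree u hu f (mem_erase.1 hf).2, (hdis f hf).1]
        have A := haug x y rfl
        have B := haug y x (pair_comm x y)
        rw [filter_insert, filter_singleton, filter_insert, filter_singleton]
        have := hne x y hxy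
        split_ifs <;> first | (exfalso; exact A ‹_› ‹_›) | (exfalso; exact B ‹_› ‹_›) | simp [this]
      have hdeg : ∀ w ∈ R \ U, R.card ≤ ∑ e ∈ P, (e.filter (g w)).card + D + 1 := by
        intro w hw
        have hwR := (mem_sdiff.1 hw).1
        have h := card_filter_add_card_filter_not (s := R.erase w) (g w)
        rw [card_erase_of_mem hwR] at h
        have h' : ((R.erase w).filter (g w)).card ≤ ∑ e ∈ P, (e.filter (g w)).card := by
          refine (card_le_card fun x hx => ?_).trans card_biUnion_le
          obtain ⟨hxR, hgx⟩ := mem_filter.1 hx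
          by_cases hxU : x ∈ U
          · obtain ⟨e, he, hxe⟩ := mem_biUnion.1 hxU
            exact mem_biUnion.2 ⟨e, he, mem_filter.2 ⟨hxe, hgx⟩⟩
          · exact absurd ⟨w, hw, x, mem_sdiff.2 ⟨mem_of_mem_erase hxR, hxU⟩, hgx⟩ hex
        have := hD w hwR
        omega
      have hsum := sum_le_card_nsmul P _ 2 hfail
      rw [sum_add_distrib, hPk, smul_eq_mul] at hsum
      have := hdeg u hu
      have := hdeg v hv
      omega

/-- Hadwiger's conjecture when every vertex has at most `d` non-neighbours and at least
`2 * d ^ 2 + 1` vertices lie outside a largest clique. -/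
theorem hadwiger_dense [Fintype V] (G : SimpleGraph V) (d : ℕ)
    (hd : ∀ v, (Gᶜ.neighborSet v).ncard ≤ d) (hω : G.cliqueNum + 2 * d ^ 2 < Fintype.card V) :
    ∃ B : Fin G.chromaticNumber.toNat → Finset V, (∀ i, (B i).Nonempty) ∧
      (∀ i, (G.induce (B i : Set V)).Connected) ∧
      ∀ i j, i ≠ j → Disjoint (B i) (B j) ∧ ∃ a ∈ B i, ∃ b ∈ B j, G.Adj a b := by
  classical
  obtain ⟨S, hS⟩ := G.exists_isNClique_cliqueNum
  let R := univ \ S
  let g : V → V → Prop := fun x y => G.Adj x y ∧ ∀ z, ¬ (Gᶜ.Adj x z ∧ Gᶜ.Adj y z)
  let N : V → Finset V := fun v => Gᶜ.neighborFinset v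
  have hN : ∀ v, (N v).card ≤ d := fun v => by
    refine le_of_eq_of_le ?_ (hd v)
    rw [← Set.ncard_coe_finset]
    simp [N]
  have hbad : ∀ u ∈ R, ((R.erase u).filter fun v => ¬ g u v).card ≤ d ^ 2 := by
    intro u _
    have hsub : (R.erase u).filter (fun v => ¬ g u v) ⊆
        (N u).biUnion fun z => insert z ((N z).erase u) := by
      intro v hv
      simp only [mem_filter, mem_erase] at hv
      obtain ⟨⟨hne, -⟩, hv⟩ := hv
      by_cases hadj : G.Adj u v
      · obtain ⟨z, hz⟩ : ∃ z, Gᶜ.Adj u z ∧ Gᶜ.Adj v z := by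
          by_contra h
          exact hv ⟨hadj, fun z hz => h ⟨z, hz⟩⟩
        exact mem_biUnion.2 ⟨z, by simpa [N] using hz.1, mem_insert_of_mem (mem_erase.2
          ⟨hne, by simpa [N] using hz.2.symm⟩)⟩
      · exact mem_biUnion.2 ⟨v, by simpa [N] using ⟨hne.symm, hadj⟩, mem_insert_self _ _⟩
    refine (card_le_card hsub).trans (card_biUnion_le.trans ?_)
    refine (sum_le_card_nsmul _ _ d fun z hz => ?_).trans ?_
    · have hu' : u ∈ N z := by
        simpa [N, G.adj_comm, ne_comm] using hz
      refine (card_insert_le _ _).trans ?_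
      rw [card_erase_of_mem hu']
      have := hN z
      have : 0 < (N z).card := card_pos.2 ⟨u, hu'⟩
      omega
    · rw [smul_eq_mul, sq]
      exact Nat.mul_le_mul_right _ (hN u)
  have hR : R.card + S.card = Fintype.card V := by
    rw [card_sdiff_of_subset (subset_univ S), card_univ]
    have := S.card_le_univ
    omega
  have hScard := hS.card_eq
  obtain ⟨P, hPk, hP, hPd⟩ := pairing (g := g)
    (fun x y h => ⟨h.1.symm, fun z hz => h.2 z hz.symm⟩) (fun x h => G.irrefl h.1) R (d ^ 2)
    (by omega) hbad (R.card / 2) (Nat.mul_div_le _ 2)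
  let F := P ∪ S.image fun s => ({s} : Finset V)
  have hFcard : (Fintype.card V + G.cliqueNum) / 2 ≤ F.card := by
    have hdis : Disjoint P (S.image fun s => ({s} : Finset V)) := by
      refine disjoint_left.2 fun e he he' => ?_
      obtain ⟨s, -, rfl⟩ := mem_image.1 he'
      obtain ⟨-, x, y, hxy, h⟩ := hP _ he
      have := congrArg Finset.card hxy
      simp [G.ne_of_adj h.1] at this
    rw [card_union_of_disjoint hdis, hPk, card_image_of_injective _ singleton_injective]
    omega
  have hchi : G.chromaticNumber.toNat ≤ (Fintype.card V + G.cliqueNum) / 2 := by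
    obtain ⟨f, hf, hf'⟩ := colour G univ G.cliqueNum fun T _ hT => hT.card_le_cliqueNum
    rw [card_univ] at hf
    have hcol : G.Colorable ((Fintype.card V + G.cliqueNum) / 2) :=
      ⟨SimpleGraph.Coloring.mk (fun v => ⟨f v, hf v (mem_univ v)⟩) fun {a b} hab he =>
        hf' a (mem_univ a) b (mem_univ b) hab (congrArg Fin.val he)⟩
    exact ENat.toNat_le_of_le_coe hcol.chromaticNumber_le
  have hconn : ∀ e ∈ F, e.Nonempty ∧ (G.induce (e : Set V)).Connected := by
    intro e he
    rcases mem_union.1 he with he | he
    · obtain ⟨-, x, y, rfl, h⟩ := hP e he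
      refine ⟨insert_nonempty _ _, ?_⟩
      rw [coe_pair]
      exact SimpleGraph.induce_pair_connected_of_adj h.1
    · obtain ⟨s, -, rfl⟩ := mem_image.1 he
      refine ⟨singleton_nonempty s, ?_⟩
      rw [coe_singleton]
      exact SimpleGraph.Connected.of_subsingleton
  have hPR : ∀ e ∈ P, ∀ s ∈ S, s ∉ e := fun e he s hs h => (mem_sdiff.1 ((hP e he).1 h)).2 hs
  have hdisj : ∀ e ∈ F, ∀ f ∈ F, e ≠ f → Disjoint e f := by
    intro e he f hf hef
    rcases mem_union.1 he with he | he <;> rcases mem_union.1 hf with hf | hf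
    · exact hPd he hf hef
    · obtain ⟨s, hs, rfl⟩ := mem_image.1 hf
      simpa using hPR e he s hs
    · obtain ⟨s, hs, rfl⟩ := mem_image.1 he
      simpa using hPR f hf s hs
    · obtain ⟨s, hs, rfl⟩ := mem_image.1 he
      obtain ⟨t, ht, rfl⟩ := mem_image.1 hf
      simpa using fun h : s = t => hef (by rw [h])
  have hadj : ∀ e ∈ P, ∀ f ∈ F, e ≠ f → ∃ a ∈ e, ∃ b ∈ f, G.Adj a b := by
    intro e he f hf hef
    obtain ⟨z, hz⟩ := (hconn f hf).1
    have hz' : z ∉ e := disjoint_right.1 (hdisj e (mem_union_left _ he) f hf hef) hz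
    obtain ⟨-, x, y, rfl, h⟩ := hP e he
    simp only [mem_insert, mem_singleton, not_or] at hz'
    by_cases hxz : G.Adj x z
    · exact ⟨x, mem_insert_self _ _, z, hz, hxz⟩
    · refine ⟨y, by simp, z, hz, ?_⟩
      by_contra hyz
      exact h.2 z ⟨⟨Ne.symm hz'.1, hxz⟩, ⟨Ne.symm hz'.2, hyz⟩⟩
  refine ⟨fun i => (F.equivFin.symm (Fin.castLE (hchi.trans hFcard) i) : Finset V),
    fun i => (hconn _ (coe_mem _)).1, fun i => (hconn _ (coe_mem _)).2, fun i j hij => ?_⟩
  dsimp only
  generalize hei : F.equivFin.symm (Fin.castLE (hchi.trans hFcard) i) = ei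
  generalize hej : F.equivFin.symm (Fin.castLE (hchi.trans hFcard) j) = ej
  have hne : (ei : Finset V) ≠ ej := fun h => hij (Fin.castLE_injective _
    (F.equivFin.symm.injective (hei.trans ((Subtype.ext h).trans hej.symm))))
  refine ⟨hdisj _ ei.2 _ ej.2 hne, ?_⟩
  rcases mem_union.1 ei.2 with hi | hi
  · exact hadj _ hi _ ej.2 hne
  rcases mem_union.1 ej.2 with hj | hj
  · obtain ⟨b, hb, a, ha, hba⟩ := hadj _ hj _ ei.2 hne.symm
    exact ⟨a, ha, b, hb, hba.symm⟩
  obtain ⟨s, hs, hs'⟩ := mem_image.1 hi
  obtain ⟨t, ht, ht'⟩ := mem_image.1 hj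
  refine ⟨s, hs' ▸ mem_singleton_self s, t, ht' ▸ mem_singleton_self t, hS.isClique hs ht ?_⟩
  rintro rfl
  exact hne (hs'.symm.trans ht')

end Vale.Agent.P060
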