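import Mathlib

/-!
Every finite graph splits, after deleting some vertices, into parts with no non-edge between two
of them and with enough representatives of different parts to certify its chromatic number.
-/

namespace Vale.Agent.P060

open Finset

variable {V : Type*} [Fintype V] [DecidableEq V]

/-- The non-edge graph with `k` further vertices joined to everything. -/
def withUniversal (G : SimpleGraph V) (k : ℕ) : SimpleGraph (V ⊕ Fin k) where
  Adj x y := x ≠ y ∧ ∀ u v, x = .inl u → y = .inl v → ¬ G.Adj u v
  symm := ⟨fun _ _ h => ⟨h.1.symm, fun u v hy hx e => h.2 v u hx hy e.symm⟩⟩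
  loopless := ⟨fun _ h => h.1 rfl⟩

open Classical in
/-- A perfect matching of the extended non-edge graph gives a colouring by its edges. -/
theorem colorable_of_matching (G : SimpleGraph V) (k : ℕ)
    {M : (withUniversal G k).Subgraph} (hM : M.IsPerfectMatching) :
    G.Colorable ((Fintype.card V + k) / 2) := by
  have hex : ∀ x, ∃ y, M.Adj x y ∧ ∀ z, M.Adj x z → z = y := fun x =>
    hM.1 (hM.2 x)
  choose p hp hpu using hex
  have hne : ∀ x, p x ≠ x := fun x h => M.loopless.irrefl x (by simpa [h] using hp x)
  have hinv : ∀ x, p (p x) = x := fun x => (hpu (p x) x (hp x).symm).symm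
  let f : V ⊕ Fin k → Sym2 (V ⊕ Fin k) := fun x => s(x, p x)
  let E := univ.image f
  have hfib : ∀ e ∈ E, (univ.filter fun x => f x = e).card = 2 := by
    intro e he
    obtain ⟨x, -, rfl⟩ := mem_image.1 he
    have : (univ.filter fun y => f y = f x) = {x, p x} := by
      ext y
      simp only [mem_filter, mem_univ, true_and, mem_insert, mem_singleton, f]
      refine ⟨fun h => ?_, ?_⟩
      · have : y ∈ s(x, p x) := h ▸ Sym2.mem_mk_left _ _
        simpa using this
      · rintro (rfl | rfl)
        · rfl
        · rw [hinv, Sym2.eq_swap]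
    rw [this, card_pair (hne x).symm]
  have hE : E.card * 2 = Fintype.card V + k := by
    have := card_eq_sum_card_image f (univ : Finset (V ⊕ Fin k))
    rw [sum_congr rfl hfib, sum_const, smul_eq_mul, card_univ, Fintype.card_sum,
      Fintype.card_fin] at this
    exact this.symm
  let col : G.Coloring (↥E) :=
    SimpleGraph.Coloring.mk (fun v => ⟨f (.inl v), mem_image_of_mem f (mem_univ _)⟩) (by
      intro u v huv he
      have he : s(Sum.inl u, p (.inl u)) = s(Sum.inl v, p (.inl v)) := congrArg Subtype.val he
      have : (Sum.inl v : V ⊕ Fin k) ∈ s(Sum.inl u, p (.inl u)) := he ▸ Sym2.mem_mk_left _ _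
      rcases Sym2.mem_iff.1 this with h | h
      · exact huv.ne (Sum.inl_injective h).symm
      · exact (M.adj_sub (hp (.inl u))).2 u v rfl h.symm huv)
  have := col.colorable
  rwa [Fintype.card_coe, show E.card = (Fintype.card V + k) / 2 by omega] at this

open Classical in
/-- **Parts.** -/
theorem exists_parts (G : SimpleGraph V) :
    ∃ (W K : Finset V) (c : V → ℕ), K ⊆ W ∧
      (∀ x ∈ W, ∀ y ∈ W, x ≠ y → ¬ G.Adj x y → c x = c y) ∧
      Set.InjOn c K ∧ 2 * G.chromaticNumber.toNat ≤ W.card + K.card := by
  set χ := G.chromaticNumber.toNat with hχ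
  by_cases hsmall : 2 * χ ≤ Fintype.card V + 1
  · rcases isEmpty_or_nonempty V with hV | ⟨⟨v⟩⟩
    · refine ⟨∅, ∅, fun _ => 0, subset_rfl, by simp, by simp, ?_⟩
      have : Fintype.card V = 0 := Fintype.card_eq_zero
      simp
      omega
    · refine ⟨univ, {v}, fun _ => 0, subset_univ _, fun _ _ _ _ _ _ => rfl, by simp, ?_⟩
      simpa using hsmall
  push Not at hsmall
  set n := Fintype.card V with hn
  obtain ⟨k, hk⟩ : ∃ k, n + k + 2 = 2 * χ := ⟨2 * χ - n - 2, by omega⟩
  obtain ⟨U, hU⟩ : ∃ U, (withUniversal G k).IsTutteViolator U := by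
    by_contra h
    push Not at h
    obtain ⟨M, hM⟩ := SimpleGraph.tutte.2 h
    have := ENat.toNat_le_of_le_natCast (colorable_of_matching G k hM).chromaticNumber_le
    omega
  set D := ((⊤ : (withUniversal G k).Subgraph).deleteVerts U).coe with hD
  have hU' : U.ncard < D.oddComponents.ncard := hU
  have hverts : Nat.card ((⊤ : (withUniversal G k).Subgraph).deleteVerts U).verts + U.ncard =
      n + k := by
    rw [Nat.card_coe_set_eq, SimpleGraph.Subgraph.deleteVerts_verts, SimpleGraph.Subgraph.verts_top,
      Set.ncard_sdiff_add_ncard_of_subset (Set.subset_univ U), Set.ncard_univ,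
      Nat.card_eq_fintype_card, Fintype.card_sum, Fintype.card_fin]
  have hadj : ∀ x y : ((⊤ : (withUniversal G k).Subgraph).deleteVerts U).verts,
      (withUniversal G k).Adj x.1 y.1 → D.Adj x y := by
    intro x y h
    have hx := x.2
    have hy := y.2
    simp only [SimpleGraph.Subgraph.deleteVerts_verts, Set.mem_sdiff] at hx hy
    simp [hD, h, hx.2, hy.2]
  -- every added vertex is deleted
  have hin : ∀ j : Fin k, (Sum.inr j : V ⊕ Fin k) ∈ U := by
    intro j
    by_contra hj
    let z : ((⊤ : (withUniversal G k).Subgraph).deleteVerts U).verts :=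
      ⟨Sum.inr j, by simp [hj]⟩
    have hone : ∀ C : D.ConnectedComponent, C = D.connectedComponentMk z := by
      refine SimpleGraph.ConnectedComponent.ind fun x => ?_
      rcases eq_or_ne x z with rfl | hxz
      · rfl
      refine SimpleGraph.ConnectedComponent.eq.2 (hadj x z ⟨?_, ?_⟩).reachable
      · exact fun h => hxz (Subtype.ext h)
      · intro u v _ hv
        simp [z] at hv
    have hle : D.oddComponents.ncard ≤ 1 :=
      (Set.ncard_le_one (Set.toFinite _)).2 fun a _ b _ => (hone a).trans (hone b).symm
    have hodd := (SimpleGraph.odd_ncard_oddComponents D).1 (by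
      rw [Nat.odd_iff]; omega)
    rw [Nat.odd_iff] at hodd
    omega
  let W : Finset V := univ.filter fun v => (Sum.inl v : V ⊕ Fin k) ∉ U
  have hWU : W.card + U.ncard = n + k := by
    have h1 : U.toFinset = (univ.filter fun v => (Sum.inl v : V ⊕ Fin k) ∈ U).disjSum univ := by
      ext (v | j)
      · simp [Finset.mem_disjSum]
      · simp [Finset.mem_disjSum, hin j]
    have h2 := congrArg Finset.card h1
    rw [card_disjSum, card_univ, Fintype.card_fin, ← Set.ncard_eq_toFinset_card'] at h2
    have h3 := card_filter_add_card_filter_not (s := (univ : Finset V))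
      fun v => (Sum.inl v : V ⊕ Fin k) ∈ U
    rw [card_univ] at h3
    simp only [W]
    omega
  have hpar : Odd D.oddComponents.ncard ↔
      Odd (Nat.card ((⊤ : (withUniversal G k).Subgraph).deleteVerts U).verts) :=
    SimpleGraph.odd_ncard_oddComponents D
  let enum := Fintype.equivFin D.ConnectedComponent
  let c : V → ℕ := fun v =>
    if h : (Sum.inl v : V ⊕ Fin k) ∈ U then 0
    else (enum (D.connectedComponentMk ⟨Sum.inl v, by simp [h]⟩) : ℕ)
  have hrep : ∀ C : D.ConnectedComponent, ∃ v, ∃ hv : (Sum.inl v : V ⊕ Fin k) ∉ U,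
      D.connectedComponentMk ⟨Sum.inl v, by simp [hv]⟩ = C := by
    refine SimpleGraph.ConnectedComponent.ind fun x => ?_
    obtain ⟨x, hx⟩ := x
    have hxU : x ∉ U := by simpa using hx
    rcases x with v | j
    · exact ⟨v, hxU, rfl⟩
    · exact absurd (hin j) hxU
  choose rep hrepU hrepC using hrep
  have hrc : ∀ C, c (rep C) = (enum C : ℕ) := fun C => by
    simp only [c, dif_neg (hrepU C), hrepC C]
  have hinj : rep.Injective := fun C C' h => enum.injective (Fin.ext (by rw [← hrc, ← hrc, h]))
  refine ⟨W, D.oddComponents.toFinset.image rep, c, ?_, ?_, ?_, ?_⟩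
  · intro v hv
    obtain ⟨C, -, rfl⟩ := mem_image.1 hv
    exact mem_filter.2 ⟨mem_univ _, hrepU C⟩
  · intro x hx y hy hne hxy
    simp only [W, mem_filter, mem_univ, true_and] at hx hy
    simp only [c, dif_neg hx, dif_neg hy]
    congr 2
    refine SimpleGraph.ConnectedComponent.eq.2 (hadj _ _ ⟨fun h => hne (Sum.inl_injective h), ?_⟩).reachable
    intro u v hu hv
    cases hu
    cases hv
    exact hxy
  · intro p hp q hq h
    simp only [coe_image, Set.mem_image] at hp hq
    obtain ⟨C, -, rfl⟩ := hp
    obtain ⟨C', -, rfl⟩ := hq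
    rw [hrc, hrc] at h
    rw [enum.injective (Fin.ext h)]
  · rw [card_image_of_injective _ hinj, ← Set.ncard_eq_toFinset_card']
    simp only [Nat.odd_iff] at hpar
    omega

end Vale.Agent.P060
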