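import Vale.Agent.P060.PermPairs
import Vale.Agent.P060.DenseParts
import Vale.Agent.P060.Dense

/-!
Complete minors in graphs with few non-neighbours at each vertex.
-/

namespace Vale.Agent.P060

open Finset

variable {V : Type*} [Fintype V] [DecidableEq V]

/-- `k` disjoint connected sets, every two joined by an edge. -/
def HasCliqueMinor (G : SimpleGraph V) (k : ℕ) : Prop :=
  ∃ B : Fin k → Finset V, (∀ i, (B i).Nonempty) ∧
    (∀ i, (G.induce (B i : Set V)).Connected) ∧
    ∀ i j, i ≠ j → Disjoint (B i) (B j) ∧ ∃ a ∈ B i, ∃ b ∈ B j, G.Adj a b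

omit [Fintype V] [DecidableEq V] in
theorem HasCliqueMinor.mono {G : SimpleGraph V} {k l : ℕ} (h : HasCliqueMinor G k) (hl : l ≤ k) :
    HasCliqueMinor G l := by
  obtain ⟨B, h1, h2, h3⟩ := h
  exact ⟨fun i => B (Fin.castLE hl i), fun i => h1 _, fun i => h2 _,
    fun i j hij => h3 _ _ fun h => hij (Fin.castLE_injective hl h)⟩

omit [Fintype V] [DecidableEq V] in
theorem adj_of_not_compl {G : SimpleGraph V} {a b : V} (hne : a ≠ b) (h : ¬ Gᶜ.Adj a b) :
    G.Adj a b := by
  simpa [hne] using h

omit [Fintype V] in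
/-- A clique and well separated edges give the branch sets. -/
theorem minor_of_sets {ι : Type*} [Fintype ι] (G : SimpleGraph V) {K : Finset V}
    (hK : G.IsClique (K : Set V)) {x y : ι → V} (hx : x.Injective) (hy : y.Injective)
    (hne : ∀ i j, x i ≠ y j) (hxK : ∀ i, x i ∉ K) (hyK : ∀ i, y i ∉ K)
    (hxy : ∀ i, ¬ Gᶜ.Adj (x i) (y i))
    (hpk : ∀ i, ∀ w ∈ K, ¬ (Gᶜ.Adj w (x i) ∧ Gᶜ.Adj w (y i)))
    (hpp : ∀ i j, i ≠ j → ¬ (Gᶜ.Adj (x i) (x j) ∧ Gᶜ.Adj (x i) (y j) ∧
      Gᶜ.Adj (y i) (x j) ∧ Gᶜ.Adj (y i) (y j))) :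
    HasCliqueMinor G (K.card + Fintype.card ι) := by
  let B : ↥K ⊕ ι → Finset V := Sum.elim (fun w => {(w : V)}) fun i => {x i, y i}
  have key : ∀ p q, p ≠ q → Disjoint (B p) (B q) ∧ ∃ a ∈ B p, ∃ b ∈ B q, G.Adj a b := by
    have hsp : ∀ (w : ↥K) (i : ι), Disjoint ({(w : V)} : Finset V) {x i, y i} ∧
        ∃ b ∈ ({x i, y i} : Finset V), G.Adj w b := by
      intro w i
      have h1 : (w : V) ≠ x i := fun h => hxK i (h ▸ w.2)
      have h2 : (w : V) ≠ y i := fun h => hyK i (h ▸ w.2)
      refine ⟨by simp [h1, h2], ?_⟩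
      by_cases h : Gᶜ.Adj w (x i)
      · exact ⟨y i, by simp, adj_of_not_compl h2 fun h' => hpk i w w.2 ⟨h, h'⟩⟩
      · exact ⟨x i, by simp, adj_of_not_compl h1 h⟩
    rintro (w | i) (z | j) hpq
    · have h : (w : V) ≠ z := fun h => hpq (congrArg _ (Subtype.ext h))
      exact ⟨by simp [B, h], w, by simp [B], z, by simp [B], hK w.2 z.2 h⟩
    · obtain ⟨h1, b, hb, h2⟩ := hsp w j
      exact ⟨h1, w, by simp [B], b, hb, h2⟩
    · obtain ⟨h1, b, hb, h2⟩ := hsp z i
      exact ⟨h1.symm, b, hb, z, by simp [B], h2.symm⟩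
    · have hij : i ≠ j := fun h => hpq (h ▸ rfl)
      refine ⟨?_, ?_⟩
      · simp [B, hx.ne hij.symm, hy.ne hij.symm, (hne i j).symm, hne j i]
      · by_contra hcon
        push Not at hcon
        refine hpp i j hij ⟨?_, ?_, ?_, ?_⟩ <;> rw [SimpleGraph.compl_adj]
        · exact ⟨hx.ne hij, hcon _ (by simp [B]) _ (by simp [B])⟩
        · exact ⟨hne i j, hcon _ (by simp [B]) _ (by simp [B])⟩
        · exact ⟨(hne j i).symm, hcon _ (by simp [B]) _ (by simp [B])⟩
        · exact ⟨hy.ne hij, hcon _ (by simp [B]) _ (by simp [B])⟩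
  have hcard : Fintype.card (↥K ⊕ ι) = K.card + Fintype.card ι := by simp
  let e := (Fintype.equivFinOfCardEq hcard).symm
  refine ⟨fun p => B (e p), fun p => ?_, fun p => ?_, fun p q h => key _ _ (e.injective.ne h)⟩
  · show (B (e p)).Nonempty
    rcases e p with w | i <;> simp [B]
  · show (G.induce (B (e p) : Set V)).Connected
    rcases e p with w | i
    · have heq : (B (.inl w) : Set V) = {(w : V)} := coe_singleton _
      rw [heq]
      exact SimpleGraph.Connected.of_subsingleton
    · have heq : (B (.inr i) : Set V) = {x i, y i} := coe_pair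
      rw [heq]
      exact SimpleGraph.induce_pair_connected_of_adj (adj_of_not_compl (hne i i) (hxy i))

open Classical in
/-- Parts with a large remainder give a minor with one set per representative and one per pair. -/
theorem minor_of_parts (G : SimpleGraph V) (d : ℕ) (hd : ∀ v, (Gᶜ.neighborSet v).ncard ≤ d)
    (W K : Finset V) (c : V → ℕ) (hKW : K ⊆ W)
    (hc : ∀ x ∈ W, ∀ y ∈ W, x ≠ y → ¬ G.Adj x y → c x = c y) (hK : Set.InjOn c K)
    (hsize : 2 ^ 24 * d ^ 4 ≤ ((W.card - K.card) / 2) ^ 3) :
    HasCliqueMinor G (K.card + (W.card - K.card) / 2) := by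
  set h := (W.card - K.card) / 2 with hh
  have hd' : ∀ v, (Gᶜ.neighborFinset v).card ≤ d := fun v => by
    refine le_of_eq_of_le ?_ (hd v)
    rw [← Set.ncard_coe_finset, SimpleGraph.coe_neighborFinset]
  have hcol : ∀ {p q : V}, p ∈ W → q ∈ W → Gᶜ.Adj p q → c p = c q := fun hp hq hpq =>
    hc _ hp _ hq hpq.1 hpq.2
  have hclique : G.IsClique (K : Set V) := fun p hp q hq hpq => by
    by_contra hadj
    exact hpq (hK hp hq (hc p (hKW hp) q (hKW hq) hpq hadj))
  obtain ⟨R, hRW, hR⟩ := exists_subset_card_eq (s := W \ K) (n := 2 * h)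
    (by rw [card_sdiff_of_subset hKW]; omega)
  have hW : ∀ v ∈ R, v ∈ W := fun v hv => (mem_sdiff.1 (hRW hv)).1
  have hnK : ∀ v ∈ R, v ∉ K := fun v hv => (mem_sdiff.1 (hRW hv)).2
  have crossK : ∀ {p q w : V}, p ∈ R → q ∈ R → w ∈ K → c p ≠ c q →
      ¬ (Gᶜ.Adj w p ∧ Gᶜ.Adj w q) := fun hp hq hw hne hwpq =>
    hne ((hcol (hKW hw) (hW _ hp) hwpq.1).symm.trans (hcol (hKW hw) (hW _ hq) hwpq.2))
  have crossP : ∀ {p q r s : V}, p ∈ R → q ∈ R → r ∈ R → s ∈ R → (c p ≠ c q ∨ c r ≠ c s) →
      ¬ (Gᶜ.Adj p r ∧ Gᶜ.Adj p s ∧ Gᶜ.Adj q r ∧ Gᶜ.Adj q s) := by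
    rintro p q r s hp hq hr hs hne ⟨h1, h2, h3, -⟩
    have e1 := hcol (hW _ hp) (hW _ hr) h1
    have e2 := hcol (hW _ hp) (hW _ hs) h2
    have e3 := hcol (hW _ hq) (hW _ hr) h3
    rcases hne with hne | hne
    · exact hne (e1.trans e3.symm)
    · exact hne (e1.symm.trans e2)
  by_cases hbig : ∃ l, h < (R.filter fun v => c v = l).card
  · obtain ⟨l, hl⟩ := hbig
    set P := R.filter fun v => c v = l with hP
    have hPR : P ⊆ R := filter_subset _ _
    have hN : P.card ≤ 2 * h := (card_le_card hPR).trans hR.le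
    set N := P.card with hNdef
    let eP := P.equivFin
    let a : Fin (N / 2) → V := fun i => (eP.symm ⟨i, by omega⟩ : V)
    let b : Fin (N / 2) → V := fun i => (eP.symm ⟨N / 2 + i, by omega⟩ : V)
    have hainj : a.Injective := fun i j hij => by
      have := eP.symm.injective (Subtype.ext hij)
      simpa [Fin.ext_iff] using this
    have hbinj : b.Injective := fun i j hij => by
      have := eP.symm.injective (Subtype.ext hij)
      simpa [Fin.ext_iff] using this
    have hab : ∀ i j, a i ≠ b j := fun i j hij => by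
      have := congrArg Fin.val (eP.symm.injective (Subtype.ext hij))
      simp at this
      omega
    have haP : ∀ i, a i ∈ P := fun i => Subtype.prop _
    have hbP : ∀ i, b i ∈ P := fun i => Subtype.prop _
    have hwo : (K.filter fun w => c w = l).card ≤ 1 := card_le_one.2 fun p hp q hq =>
      hK (mem_filter.1 hp).1 (mem_filter.1 hq).1 ((mem_filter.1 hp).2.trans (mem_filter.1 hq).2.symm)
    have hM : 2 ^ 21 * d ^ 4 ≤ (N / 2) ^ 3 := by
      have h1 : h ^ 3 ≤ (2 * (N / 2)) ^ 3 := Nat.pow_le_pow_left (by omega) 3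
      have h2 : (2 * (N / 2)) ^ 3 = 8 * (N / 2) ^ 3 := by ring
      omega
    obtain ⟨σ, hσ1, hσ2⟩ := exists_pairs hd' hainj hbinj hwo hM
    set m := N - h with hm
    have hmM : m ≤ N / 2 := by omega
    let ι := Fin (N / 2)
    let used : Finset V := (univ.image fun i : Fin m => a (Fin.castLE hmM i)) ∪
      univ.image fun i : Fin m => b (σ (Fin.castLE hmM i))
    have hxi : Function.Injective fun i : Fin m => a (Fin.castLE hmM i) :=
      hainj.comp (Fin.castLE_injective _)
    have hyi : Function.Injective fun i : Fin m => b (σ (Fin.castLE hmM i)) :=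
      hbinj.comp (σ.injective.comp (Fin.castLE_injective _))
    have huP : used ⊆ P := union_subset (image_subset_iff.2 fun i _ => haP _)
      (image_subset_iff.2 fun i _ => hbP _)
    have hused : used.card = 2 * m := by
      rw [card_union_of_disjoint, card_image_of_injective _ hxi, card_image_of_injective _ hyi,
        card_univ, Fintype.card_fin]
      · omega
      · refine disjoint_left.2 fun v hv hv' => ?_
        obtain ⟨i, -, rfl⟩ := mem_image.1 hv
        obtain ⟨j, -, hj⟩ := mem_image.1 hv'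
        exact hab _ _ hj.symm
    have hQc : (P \ used).card = h - m := by
      rw [card_sdiff_of_subset huP, hused]
      omega
    have hOc : (R \ P).card = h - m := by
      rw [card_sdiff_of_subset hPR]
      omega
    let eQ := (P \ used).equivFinOfCardEq hQc
    let eO := (R \ P).equivFinOfCardEq hOc
    let x : Fin m ⊕ Fin (h - m) → V :=
      Sum.elim (fun i => a (Fin.castLE hmM i)) fun j => (eQ.symm j : V)
    let y : Fin m ⊕ Fin (h - m) → V :=
      Sum.elim (fun i => b (σ (Fin.castLE hmM i))) fun j => (eO.symm j : V)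
    have hQ : ∀ j, (eQ.symm j : V) ∈ P ∧ (eQ.symm j : V) ∉ used := fun j =>
      mem_sdiff.1 (eQ.symm j).2
    have hO : ∀ j, (eO.symm j : V) ∈ R ∧ (eO.symm j : V) ∉ P := fun j =>
      mem_sdiff.1 (eO.symm j).2
    have hxR : ∀ p, x p ∈ R := by
      rintro (i | j)
      exacts [hPR (haP _), hPR (hQ j).1]
    have hyR : ∀ p, y p ∈ R := by
      rintro (i | j)
      exacts [hPR (hbP _), (hO j).1]
    have hlab : ∀ {v : V}, v ∈ P → c v = l := fun hv => (mem_filter.1 hv).2
    have hcross : ∀ j, c (x (.inr j)) ≠ c (y (.inr j)) := fun j he => by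
      refine (hO j).2 (mem_filter.2 ⟨(hO j).1, ?_⟩)
      exact he.symm.trans (hlab (hQ j).1)
    have := minor_of_sets G hclique (x := x) (y := y)
      (by
        rintro (i | i) (j | j) hij
        · exact congrArg _ (hxi hij)
        · exact absurd (mem_union_left _ (mem_image_of_mem _ (mem_univ i)))
            (show x (.inl i) ∉ used from hij ▸ (hQ j).2)
        · exact absurd (mem_union_left _ (mem_image_of_mem _ (mem_univ j)))
            (show x (.inl j) ∉ used from hij ▸ (hQ i).2)
        · exact congrArg _ (eQ.symm.injective (Subtype.ext hij)))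
      (by
        rintro (i | i) (j | j) hij
        · exact congrArg _ (hyi hij)
        · exact absurd (hbP (σ (Fin.castLE hmM i)))
            (show y (.inl i) ∉ P from hij ▸ (hO j).2)
        · exact absurd (hbP (σ (Fin.castLE hmM j)))
            (show y (.inl j) ∉ P from hij ▸ (hO i).2)
        · exact congrArg _ (eO.symm.injective (Subtype.ext hij)))
      (by
        rintro (i | i) (j | j) hij
        · exact hab _ _ hij
        · exact (hO j).2 (show y (.inr j) ∈ P from hij ▸ haP _)
        · exact (hQ i).2 (show x (.inr i) ∈ used from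
            hij ▸ mem_union_right _ (mem_image_of_mem _ (mem_univ j)))
        · exact (hO j).2 (show y (.inr j) ∈ P from hij ▸ (hQ i).1))
      (fun p => hnK _ (hxR p)) (fun p => hnK _ (hyR p))
      (by
        rintro (i | j)
        · exact (hσ1 _).1
        · exact fun hadj => hcross j (hcol (hW _ (hxR _)) (hW _ (hyR _)) hadj))
      (by
        rintro (i | j) w hw
        · intro hwxy
          exact (hσ1 _).2 w (mem_filter.2 ⟨hw, (hcol (hKW hw) (hW _ (hPR (haP _))) hwxy.1).trans
            (hlab (haP _))⟩) hwxy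
        · exact crossK (hxR _) (hyR _) hw (hcross j))
      (by
        rintro (i | i) (j | j) hij
        · exact hσ2 _ _ fun e => hij (congrArg _ (Fin.castLE_injective hmM e))
        · exact crossP (hxR _) (hyR _) (hxR _) (hyR _) (.inr (hcross j))
        · exact crossP (hxR _) (hyR _) (hxR _) (hyR _) (.inl (hcross i))
        · exact crossP (hxR _) (hyR _) (hxR _) (hyR _) (.inl (hcross i)))
    rwa [Fintype.card_sum, Fintype.card_fin, Fintype.card_fin, show m + (h - m) = h by omega] at this
  push Not at hbig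
  let e := (R.equivFinOfCardEq hR).symm
  let π := Tuple.sort fun i => c (e i)
  let g : Fin (2 * h) → V := fun i => (e (π i) : V)
  have hgR : ∀ i, g i ∈ R := fun i => Subtype.prop _
  have hgi : g.Injective := fun i j hij => π.injective (e.injective (Subtype.ext hij))
  have hmono : Monotone fun i => c (g i) := Tuple.monotone_sort fun i => c (e i)
  let x : Fin h → V := fun i => g ⟨i, by omega⟩
  let y : Fin h → V := fun i => g ⟨i + h, by omega⟩
  have hcross : ∀ i, c (x i) ≠ c (y i) := by
    intro i he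
    have := hbig (c (x i))
    have hsub : (Finset.Icc (⟨i, by omega⟩ : Fin (2 * h)) ⟨i + h, by omega⟩).image g ⊆
        R.filter fun v => c v = c (x i) := by
      intro v hv
      obtain ⟨t, ht, rfl⟩ := mem_image.1 hv
      obtain ⟨h1, h2⟩ := mem_Icc.1 ht
      exact mem_filter.2 ⟨hgR t, le_antisymm ((hmono h2).trans_eq he.symm) (hmono h1)⟩
    have h3 := (card_le_card hsub).trans this
    rw [card_image_of_injective _ hgi, Fin.card_Icc] at h3
    simp at h3
    omega
  have := minor_of_sets G hclique (x := x) (y := y)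
    (fun i j hij => Fin.ext (by simpa [Fin.ext_iff] using hgi hij))
    (fun i j hij => Fin.ext (by simpa [Fin.ext_iff] using hgi hij))
    (fun i j hij => by
      have := congrArg Fin.val (hgi hij)
      simp at this
      omega)
    (fun i => hnK _ (hgR _)) (fun i => hnK _ (hgR _))
    (fun i hadj => hcross i (hcol (hW _ (hgR _)) (hW _ (hgR _)) hadj))
    (fun i w hw => crossK (hgR _) (hgR _) hw (hcross i))
    (fun i j _ => crossP (hgR _) (hgR _) (hgR _) (hgR _) (.inl (hcross i)))
  rwa [Fintype.card_fin] at this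

/-- Half of the order, rounded up. -/
theorem half_minor (G : SimpleGraph V) (d : ℕ) (hd : ∀ v, (Gᶜ.neighborSet v).ncard ≤ d)
    (hsize : 2 ^ 24 * d ^ 4 ≤ (Fintype.card V / 2) ^ 3) :
    HasCliqueMinor G ((Fintype.card V + 1) / 2) := by
  obtain ⟨K, hKu, hKc⟩ := exists_subset_card_eq (s := (univ : Finset V))
    (n := Fintype.card V % 2) (by rw [card_univ]; exact Nat.mod_le _ _)
  have h := minor_of_parts G d hd univ K (fun _ => 0) hKu (fun _ _ _ _ _ _ => rfl)
    (fun p hp q hq _ => by
      have : K.card ≤ 1 := by omega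
      exact card_le_one.1 this p hp q hq)
    (by
      rw [card_univ, hKc, show (Fintype.card V - Fintype.card V % 2) / 2 = Fintype.card V / 2 by
        omega]
      exact hsize)
  rw [card_univ, hKc] at h
  exact h.mono (by omega)

/-- Hadwiger's bound when the gap between the two invariants is large. -/
theorem gap_minor (G : SimpleGraph V) (d : ℕ) (hd : ∀ v, (Gᶜ.neighborSet v).ncard ≤ d)
    (hgap : 2 ^ 24 * d ^ 4 ≤ (G.chromaticNumber.toNat - G.cliqueNum) ^ 3) :
    HasCliqueMinor G G.chromaticNumber.toNat := by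
  obtain ⟨W, K, c, hKW, hc, hK, hchi⟩ := exists_parts G
  have hcl : G.IsClique (K : Set V) := fun p hp q hq hpq => by
    by_contra hadj
    exact hpq (hK hp hq (hc p (hKW hp) q (hKW hq) hpq hadj))
  have hω : K.card ≤ G.cliqueNum := hcl.card_le_cliqueNum
  have := card_le_card hKW
  have h := minor_of_parts G d hd W K c hKW hc hK
    (hgap.trans (Nat.pow_le_pow_left (by omega) 3))
  exact h.mono (by omega)

end Vale.Agent.P060
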