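import Mathlib

/-!
The local lemma for a uniformly random permutation: forbidden sets of one or two prescribed
values can all be avoided when each row and each column meets little forbidden weight.
-/

namespace Vale.Agent.P060

open Finset

variable {M : ℕ}

/-- The permutation takes all the prescribed values. -/
def Has (σ : Equiv.Perm (Fin M)) (e : Finset (Fin M × Fin M)) : Prop :=
  ∀ p ∈ e, σ p.1 = p.2

/-- One or two prescribed values in distinct rows and columns. -/
def Simple (e : Finset (Fin M × Fin M)) : Prop :=
  (∃ u a, e = {(u, a)}) ∨ ∃ u a x b, u ≠ x ∧ a ≠ b ∧ e = {(u, a), (x, b)}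

/-- The two share a row or a column. -/
def Touch (P e : Finset (Fin M × Fin M)) : Prop :=
  ∃ p ∈ P, ∃ q ∈ e, q.1 = p.1 ∨ q.2 = p.2

/-- The chance that a uniform permutation takes all the values. -/
noncomputable def weight (e : Finset (Fin M × Fin M)) : ℝ :=
  if e.card = 1 then 1 / M else 1 / (M * (M - 1 : ℕ))

theorem weight_nonneg (e : Finset (Fin M × Fin M)) : 0 ≤ weight e := by
  unfold weight
  split_ifs <;> positivity

open Classical in
/-- Permutations with none of the forbidden sets. -/
noncomputable def avoid (S : Finset (Finset (Fin M × Fin M))) : Finset (Equiv.Perm (Fin M)) :=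
  univ.filter fun σ => ∀ e ∈ S, ¬ Has σ e

theorem mem_avoid {S : Finset (Finset (Fin M × Fin M))} {σ : Equiv.Perm (Fin M)} :
    σ ∈ avoid S ↔ ∀ e ∈ S, ¬ Has σ e := by simp [avoid]

open Classical in
/-- Prescribing one more value, away from all forbidden sets. -/
theorem swap_step (S : Finset (Finset (Fin M × Fin M))) (F : Finset (Fin M × Fin M))
    (x b : Fin M) (hS : ∀ e ∈ S, ∀ q ∈ e, q.1 ≠ x ∧ q.2 ≠ b)
    (hF : ∀ q ∈ F, q.1 ≠ x ∧ q.2 ≠ b) :
    ((avoid S).filter fun σ => Has σ (insert (x, b) F)).card * (univ \ F.image Prod.snd).card ≤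
      ((avoid S).filter fun σ => Has σ F).card := by
  rw [← card_product]
  refine card_le_card_of_injOn (fun q => q.1.trans (Equiv.swap b q.2)) ?_ ?_
  · rintro ⟨σ, b'⟩ hq
    simp only [mem_coe, mem_product, mem_filter, mem_sdiff, mem_univ, true_and] at hq
    obtain ⟨⟨hσ, hH⟩, hb'⟩ := hq
    have hx : σ x = b := hH _ (mem_insert_self _ _)
    simp only [mem_coe, mem_filter]
    refine ⟨mem_avoid.2 fun e he hcon => mem_avoid.1 hσ e he fun q hq => ?_, fun q hq => ?_⟩
    · have h := hcon q hq
      simp only [Equiv.trans_apply] at h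
      by_cases h1 : σ q.1 = b
      · exact absurd (σ.injective (h1.trans hx.symm)) (hS e he q hq).1
      by_cases h2 : σ q.1 = b'
      · rw [h2, Equiv.swap_apply_right] at h
        exact absurd h.symm (hS e he q hq).2
      rwa [Equiv.swap_apply_of_ne_of_ne h1 h2] at h
    · rw [Equiv.trans_apply, hH q (mem_insert_of_mem hq),
        Equiv.swap_apply_of_ne_of_ne (hF q hq).2 fun h => hb' (mem_image.2 ⟨q, hq, h⟩)]
  · rintro ⟨σ, b'⟩ hq ⟨τ, c'⟩ hr he
    simp only [mem_coe, mem_product, mem_filter] at hq hr
    have hx : σ x = b := hq.1.2 _ (mem_insert_self _ _)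
    have hy : τ x = b := hr.1.2 _ (mem_insert_self _ _)
    have hbc : b' = c' := by
      have := Equiv.ext_iff.1 he x
      simpa [hx, hy] using this
    subst hbc
    refine Prod.ext (Equiv.ext fun z => ?_) rfl
    exact (Equiv.swap b b').injective (Equiv.ext_iff.1 he z)

open Classical in
/-- A forbidden set away from all others is no more likely after conditioning on avoiding them. -/
theorem indep_step (S : Finset (Finset (Fin M × Fin M))) {P : Finset (Fin M × Fin M)}
    (hP : Simple P) (hS : ∀ e ∈ S, ¬ Touch P e) :
    (((avoid S).filter fun σ => Has σ P).card : ℝ) ≤ weight P * (avoid S).card := by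
  have hS' : ∀ p ∈ P, ∀ e ∈ S, ∀ q ∈ e, q.1 ≠ p.1 ∧ q.2 ≠ p.2 := fun p hp e he q hq =>
    ⟨fun h => hS e he ⟨p, hp, q, hq, .inl h⟩, fun h => hS e he ⟨p, hp, q, hq, .inr h⟩⟩
  have h0 : ((avoid S).filter fun σ => Has σ (∅ : Finset (Fin M × Fin M))).card =
      (avoid S).card := by
    rw [filter_true_of_mem]
    simp [Has]
  rcases hP with ⟨u, a, rfl⟩ | ⟨u, a, x, b, hux, hab, rfl⟩
  · have h := swap_step S ∅ u a (hS' (u, a) (by simp)) (by simp)
    simp only [insert_empty_eq, image_empty, sdiff_empty, card_univ, Fintype.card_fin] at h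
    rw [h0] at h
    rw [weight, if_pos (card_singleton _), div_mul_eq_mul_div, one_mul,
      le_div_iff₀ (by exact_mod_cast u.pos)]
    exact_mod_cast h
  · have h1 := swap_step S ∅ u a (hS' (u, a) (by simp)) (by simp)
    simp only [insert_empty_eq, image_empty, sdiff_empty, card_univ, Fintype.card_fin] at h1
    rw [h0] at h1
    have h2 := swap_step S {(u, a)} x b (hS' (x, b) (by simp)) (by simp [hux, hab])
    rw [image_singleton, card_sdiff_of_subset (subset_univ _), card_univ, Fintype.card_fin,
      card_singleton, show insert (x, b) ({(u, a)} : Finset (Fin M × Fin M)) = {(u, a), (x, b)}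
        from pair_comm _ _] at h2
    have hM : 2 ≤ M := by
      have := u.isLt
      have := x.isLt
      have : (u : ℕ) ≠ x := fun h => hux (Fin.ext h)
      omega
    rw [weight, if_neg (by rw [card_pair (by simp [hux])]; omega), div_mul_eq_mul_div, one_mul,
      le_div_iff₀ (by exact_mod_cast Nat.mul_pos (by omega : 0 < M) (by omega : 0 < M - 1))]
    have h3 := Nat.mul_le_mul_right M h2
    have h4 := h3.trans h1
    rw [mul_right_comm] at h4
    rw [← mul_assoc]
    exact_mod_cast h4

open Classical in
/-- The local lemma for permutations. -/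
theorem exists_perm_avoiding (E : Finset (Finset (Fin M × Fin M))) (hE : ∀ e ∈ E, Simple e)
    (hrow : ∀ u, ∑ e ∈ E.filter (fun e => ∃ q ∈ e, q.1 = u), weight e ≤ 1 / 16)
    (hcol : ∀ a, ∑ e ∈ E.filter (fun e => ∃ q ∈ e, q.2 = a), weight e ≤ 1 / 16) :
    ∃ σ : Equiv.Perm (Fin M), ∀ e ∈ E, ¬ Has σ e := by
  have htouch : ∀ P ∈ E, ∑ e ∈ E.filter (Touch P), weight e ≤ 1 / 4 := by
    intro P hP
    calc ∑ e ∈ E.filter (Touch P), weight e
        ≤ ∑ e ∈ E, ∑ p ∈ P, ((if ∃ q ∈ e, q.1 = p.1 then weight e else 0) +
            if ∃ q ∈ e, q.2 = p.2 then weight e else 0) := by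
          rw [sum_filter]
          refine sum_le_sum fun e _ => ?_
          have hnn : ∀ p ∈ P, 0 ≤ (if ∃ q ∈ e, q.1 = p.1 then weight e else 0) +
              if ∃ q ∈ e, q.2 = p.2 then weight e else 0 := fun p _ => by
            have := weight_nonneg e
            split_ifs <;> linarith
          split_ifs with h
          · obtain ⟨p, hp, q, hq, h⟩ := h
            refine le_trans ?_ (single_le_sum hnn hp)
            have := weight_nonneg e
            rcases h with h | h
            · rw [if_pos ⟨q, hq, h⟩]
              split_ifs <;> linarith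
            · rw [if_pos (c := ∃ r ∈ e, r.2 = p.2) ⟨q, hq, h⟩]
              split_ifs <;> linarith
          · exact sum_nonneg hnn
      _ ≤ ∑ _p ∈ P, (1 / 8 : ℝ) := by
          rw [sum_comm]
          refine sum_le_sum fun p _ => ?_
          rw [sum_add_distrib, ← sum_filter, ← sum_filter]
          have := hrow p.1
          have := hcol p.2
          linarith
      _ ≤ 1 / 4 := by
          rw [sum_const, nsmul_eq_mul]
          have : P.card ≤ 2 := by
            rcases hE P hP with ⟨u, a, rfl⟩ | ⟨u, a, x, b, -, -, rfl⟩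
            · simp
            · exact card_insert_le _ _
          have : (P.card : ℝ) ≤ 2 := by exact_mod_cast this
          linarith
  have key : ∀ S ⊆ E, ∀ P ∈ E,
      (((avoid S).filter fun σ => Has σ P).card : ℝ) ≤ 2 * weight P * (avoid S).card := by
    intro S
    induction S using Finset.strongInduction with
    | _ S ih =>
      intro hS P hP
      let S₁ := S.filter (Touch P)
      let S₂ := S.filter fun e => ¬ Touch P e
      have hind := indep_step S₂ (hE P hP) fun e he => (mem_filter.1 he).2
      have hsub : avoid S ⊆ avoid S₂ := fun σ hσ =>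
        mem_avoid.2 fun e he => mem_avoid.1 hσ e (mem_filter.1 he).1
      have hle : (((avoid S).filter fun σ => Has σ P).card : ℝ) ≤
          weight P * (avoid S₂).card :=
        le_trans (by exact_mod_cast card_le_card (filter_subset_filter _ hsub)) hind
      have hw := weight_nonneg P
      by_cases h1 : S₁ = ∅
      · have : S₂ = S := filter_true_of_mem fun e he ht =>
          eq_empty_iff_forall_notMem.1 h1 e (mem_filter.2 ⟨he, ht⟩)
        rw [this] at hle
        have : (0 : ℝ) ≤ weight P * (avoid S).card := by positivity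
        linarith
      obtain ⟨e₀, he₀⟩ := nonempty_iff_ne_empty.2 h1
      have hss : S₂ ⊂ S := filter_ssubset.2 ⟨e₀, (mem_filter.1 he₀).1, fun h => h (mem_filter.1 he₀).2⟩
      have hsplit : avoid S₂ ⊆ avoid S ∪ S₁.biUnion fun e => (avoid S₂).filter fun σ => Has σ e := by
        intro σ hσ
        by_cases h : σ ∈ avoid S
        · exact mem_union_left _ h
        · rw [mem_avoid] at h
          push Not at h
          obtain ⟨e, he, hHas⟩ := h
          have ht : Touch P e := by
            by_contra ht
            exact mem_avoid.1 hσ e (mem_filter.2 ⟨he, ht⟩) hHas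
          exact mem_union_right _
            (mem_biUnion.2 ⟨e, mem_filter.2 ⟨he, ht⟩, mem_filter.2 ⟨hσ, hHas⟩⟩)
      have hnat := ((card_le_card hsplit).trans (card_union_le _ _)).trans
        (Nat.add_le_add_left card_biUnion_le _)
      have hreal : ((avoid S₂).card : ℝ) ≤ (avoid S).card +
          ∑ e ∈ S₁, (((avoid S₂).filter fun σ => Has σ e).card : ℝ) := by exact_mod_cast hnat
      have hsum : ∑ e ∈ S₁, (((avoid S₂).filter fun σ => Has σ e).card : ℝ) ≤
          2 * (1 / 4) * (avoid S₂).card := by
        refine (sum_le_sum fun e he =>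
          ih S₂ hss (hss.subset.trans hS) e (hS (mem_filter.1 he).1)).trans ?_
        rw [← sum_mul, ← mul_sum]
        gcongr
        exact (sum_le_sum_of_subset_of_nonneg (filter_subset_filter _ hS)
          fun e _ _ => weight_nonneg e).trans (htouch P hP)
      nlinarith
  have pos : ∀ S ⊆ E, 0 < (avoid S).card := by
    intro S
    induction S using Finset.induction_on with
    | empty =>
      intro _
      exact card_pos.2 ⟨1, mem_avoid.2 (by simp)⟩
    | insert e S he ih =>
      intro hS
      obtain ⟨heE, hSE⟩ := insert_subset_iff.1 hS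
      have hp : (0 : ℝ) < (avoid S).card := by exact_mod_cast ih hSE
      have hk := key S hSE e heE
      have hw : weight e ≤ 1 / 4 := by
        refine le_trans ?_ (htouch e heE)
        refine single_le_sum (fun f _ => weight_nonneg f) (mem_filter.2 ⟨heE, ?_⟩)
        rcases hE e heE with ⟨u, a, rfl⟩ | ⟨u, a, x, b, -, -, rfl⟩ <;>
          exact ⟨(u, a), by simp, (u, a), by simp, .inl rfl⟩
      have heq : avoid (insert e S) = (avoid S).filter fun σ => ¬ Has σ e := by
        ext σ
        simp only [mem_avoid, mem_filter, forall_mem_insert, and_comm]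
      have hc : (((avoid S).filter fun σ => Has σ e).card : ℝ) +
          ((avoid S).filter fun σ => ¬ Has σ e).card = (avoid S).card := by
        exact_mod_cast card_filter_add_card_filter_not (s := avoid S) fun σ => Has σ e
      have : (0 : ℝ) < ((avoid S).filter fun σ => ¬ Has σ e).card := by nlinarith
      rw [heq]
      exact_mod_cast this
  obtain ⟨σ, hσ⟩ := card_pos.1 (pos E subset_rfl)
  exact ⟨σ, mem_avoid.1 hσ⟩

end Vale.Agent.P060
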