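import Vale.Agent.P060.PermLocal

/-!
Pairing two halves of a vertex set so that no two pairs are completely joined in a graph of
small maximum degree.
-/

namespace Vale.Agent.P060

open Finset

variable {V : Type*} [Fintype V] [DecidableEq V] (H : SimpleGraph V) [DecidableRel H.Adj]

/-- Not allowed as a pair: adjacent, both next to a marked vertex, or too many common
neighbours. -/
def Bad (wo : Finset V) (L : ℕ) (r v : V) : Prop :=
  H.Adj r v ∨ (∃ w ∈ wo, H.Adj w r ∧ H.Adj w v) ∨
    L < (H.neighborFinset r ∩ H.neighborFinset v).card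

theorem Bad.symm {wo : Finset V} {L : ℕ} {r v : V} (h : Bad H wo L r v) : Bad H wo L v r := by
  rcases h with h | ⟨w, hw, h1, h2⟩ | h
  · exact .inl h.symm
  · exact .inr (.inl ⟨w, hw, h2, h1⟩)
  · exact .inr (.inr (by rwa [inter_comm]))

variable {H} {d M : ℕ}

theorem margin (hM : 2 ^ 21 * d ^ 4 ≤ M ^ 3) : 128 * d ≤ M := by
  by_contra h
  push Not at h
  have h1 : M ^ 3 < (128 * d) ^ 3 := Nat.pow_lt_pow_left h (by norm_num)
  have h2 : d ^ 3 ≤ d ^ 4 := by
    rcases Nat.eq_zero_or_pos d with rfl | hd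
    · simp
    · exact Nat.pow_le_pow_right hd (by norm_num)
  have : (128 * d) ^ 3 = 2 ^ 21 * d ^ 3 := by ring
  omega

open Classical in
/-- Few vertices are forbidden to a given one. -/
theorem card_bad (hd : ∀ v, (H.neighborFinset v).card ≤ d) {wo : Finset V} (hwo : wo.card ≤ 1)
    (hM : 2 ^ 21 * d ^ 4 ≤ M ^ 3) (r : V) :
    32 * (univ.filter fun v => Bad H wo (64 * d ^ 2 / M) r v).card ≤ M := by
  set L := 64 * d ^ 2 / M with hL
  let C := univ.filter fun v => L < (H.neighborFinset r ∩ H.neighborFinset v).card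
  have hsub : (univ.filter fun v => Bad H wo L r v) ⊆
      H.neighborFinset r ∪ wo.biUnion (fun w => H.neighborFinset w) ∪ C := by
    intro v hv
    rcases (mem_filter.1 hv).2 with h | ⟨w, hw, -, h⟩ | h
    · exact mem_union_left _ (mem_union_left _ ((H.mem_neighborFinset _ _).2 h))
    · exact mem_union_left _ (mem_union_right _
        (mem_biUnion.2 ⟨w, hw, (H.mem_neighborFinset _ _).2 h⟩))
    · exact mem_union_right _ (mem_filter.2 ⟨mem_univ _, h⟩)
  have h1 : (wo.biUnion fun w => H.neighborFinset w).card ≤ d :=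
    (card_biUnion_le.trans (sum_le_card_nsmul _ _ d fun w _ => hd w)).trans (by
      rw [smul_eq_mul]
      exact (Nat.mul_le_mul_right d hwo).trans (one_mul d).le)
  have hC : C.card * (L + 1) ≤ d ^ 2 := by
    calc C.card * (L + 1) = ∑ _v ∈ C, (L + 1) := by rw [sum_const, smul_eq_mul]
      _ ≤ ∑ v ∈ C, (H.neighborFinset r ∩ H.neighborFinset v).card :=
          sum_le_sum fun v hv => (mem_filter.1 hv).2
      _ ≤ ∑ v, (H.neighborFinset r ∩ H.neighborFinset v).card :=
          sum_le_sum_of_subset (subset_univ _)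
      _ = ∑ v, ∑ x ∈ H.neighborFinset r, if x ∈ H.neighborFinset v then 1 else 0 :=
          sum_congr rfl fun v _ => by rw [sum_boole, filter_mem_eq_inter, Nat.cast_id]
      _ = ∑ x ∈ H.neighborFinset r, ∑ v, if x ∈ H.neighborFinset v then 1 else 0 := sum_comm
      _ ≤ ∑ _x ∈ H.neighborFinset r, d := by
          refine sum_le_sum fun x _ => le_of_eq_of_le ?_ (hd x)
          rw [sum_boole, Nat.cast_id]
          congr 1
          ext v
          simp [H.adj_comm]
      _ ≤ d ^ 2 := by
          rw [sum_const, smul_eq_mul, sq]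
          exact Nat.mul_le_mul_right d (hd r)
  have hC' : 64 * C.card ≤ M := by
    rcases Nat.eq_zero_or_pos M with rfl | hMpos
    · have : d ^ 4 = 0 := by simpa using hM
      have : d = 0 := eq_zero_of_pow_eq_zero this
      subst this
      simp at hC ⊢
      exact eq_empty_iff_forall_notMem.2 fun v hv => by simp_all
    have hlt : 64 * d ^ 2 < (L + 1) * M := by
      have := Nat.lt_mul_div_succ (64 * d ^ 2) hMpos
      rw [← hL] at this
      linarith
    have h3 : C.card * ((L + 1) * M) ≤ d ^ 2 * M := by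
      rw [← mul_assoc]
      exact Nat.mul_le_mul_right M hC
    by_contra hcon
    push Not at hcon
    nlinarith
  have h2 := margin hM
  have h4 := hd r
  have h5 := (card_le_card hsub).trans
    ((card_union_le _ _).trans (Nat.add_le_add_right (card_union_le _ _) _))
  omega

open Classical in
/-- Few completely joined pairs of allowed pairs through a given vertex. -/
theorem card_triples (hd : ∀ v, (H.neighborFinset v).card ≤ d) {f g h : Fin M → V}
    (hf : f.Injective) (hg : g.Injective) (hh : h.Injective) (L : ℕ) (r : V) :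
    (univ.filter fun t : Fin M × Fin M × Fin M => H.Adj r (f t.1) ∧ H.Adj r (g t.2.1) ∧
      (H.neighborFinset (f t.1) ∩ H.neighborFinset (g t.2.1)).card ≤ L ∧
      H.Adj (h t.2.2) (f t.1) ∧ H.Adj (h t.2.2) (g t.2.1)).card ≤ d * d * L := by
  let If := univ.filter fun i => H.Adj r (f i)
  let Ig := univ.filter fun i => H.Adj r (g i)
  have cnt : ∀ (k : Fin M → V), k.Injective → ∀ T : Finset V,
      (univ.filter fun i => k i ∈ T).card ≤ T.card := fun k hk T =>
    card_le_card_of_injOn k (fun i hi => (mem_filter.1 hi).2) hk.injOn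
  have hI : ∀ (k : Fin M → V), k.Injective → (univ.filter fun i => H.Adj r (k i)).card ≤ d :=
    fun k hk => by
      refine le_trans ?_ (hd r)
      simpa using cnt k hk (H.neighborFinset r)
  let S : Fin M × Fin M → Finset (Fin M × Fin M × Fin M) := fun p =>
    if (H.neighborFinset (f p.1) ∩ H.neighborFinset (g p.2)).card ≤ L then
      (univ.filter fun k => h k ∈ H.neighborFinset (f p.1) ∩ H.neighborFinset (g p.2)).image
        fun k => (p.1, p.2, k)
    else ∅
  refine le_trans (card_le_card (t := (If ×ˢ Ig).biUnion S) ?_) ?_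
  · rintro ⟨i, j, k⟩ ht
    obtain ⟨-, h1, h2, h3, h4, h5⟩ := mem_filter.1 ht
    refine mem_biUnion.2 ⟨(i, j), mem_product.2 ⟨mem_filter.2 ⟨mem_univ _, h1⟩,
      mem_filter.2 ⟨mem_univ _, h2⟩⟩, ?_⟩
    simp only [S, if_pos h3]
    refine mem_image.2 ⟨k, mem_filter.2 ⟨mem_univ _, mem_inter.2
      ⟨(H.mem_neighborFinset _ _).2 h4.symm, (H.mem_neighborFinset _ _).2 h5.symm⟩⟩, rfl⟩
  · refine card_biUnion_le.trans ((sum_le_card_nsmul _ _ L fun p _ => ?_).trans ?_)
    · simp only [S]
      split_ifs with hL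
      · exact card_image_le.trans ((cnt h hh _).trans hL)
      · simp
    · rw [smul_eq_mul, card_product]
      exact Nat.mul_le_mul_right L (Nat.mul_le_mul (hI f hf) (hI g hg))

open Classical in
/-- **Pairing.** A bijection between two halves with allowed pairs, no two completely joined. -/
theorem exists_pairs (hd : ∀ v, (H.neighborFinset v).card ≤ d) {a b : Fin M → V}
    (ha : a.Injective) (hb : b.Injective) {wo : Finset V} (hwo : wo.card ≤ 1)
    (hM : 2 ^ 21 * d ^ 4 ≤ M ^ 3) :
    ∃ σ : Equiv.Perm (Fin M),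
      (∀ i, ¬ H.Adj (a i) (b (σ i)) ∧ ∀ w ∈ wo, ¬ (H.Adj w (a i) ∧ H.Adj w (b (σ i)))) ∧
      ∀ i j, i ≠ j → ¬ (H.Adj (a i) (a j) ∧ H.Adj (a i) (b (σ j)) ∧
        H.Adj (b (σ i)) (a j) ∧ H.Adj (b (σ i)) (b (σ j))) := by
  set L := 64 * d ^ 2 / M with hL
  let E₁ : Finset (Finset (Fin M × Fin M)) :=
    (univ.filter fun p : Fin M × Fin M => Bad H wo L (a p.1) (b p.2)).image fun p => {p}
  let Q : (Fin M × Fin M) × Fin M × Fin M → Prop := fun t =>
    t.1.1 ≠ t.2.1 ∧ t.1.2 ≠ t.2.2 ∧ ¬ Bad H wo L (a t.1.1) (b t.1.2) ∧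
      ¬ Bad H wo L (a t.2.1) (b t.2.2) ∧ H.Adj (a t.1.1) (a t.2.1) ∧
      H.Adj (a t.1.1) (b t.2.2) ∧ H.Adj (b t.1.2) (a t.2.1) ∧ H.Adj (b t.1.2) (b t.2.2)
  have hQ : ∀ p q, Q (p, q) → Q (q, p) := fun p q ⟨h1, h2, h3, h4, h5, h6, h7, h8⟩ =>
    ⟨h1.symm, h2.symm, h4, h3, h5.symm, h7.symm, h6.symm, h8.symm⟩
  let E₂ : Finset (Finset (Fin M × Fin M)) := (univ.filter Q).image fun t => {t.1, t.2}
  have hfirst : ∀ (P : Fin M × Fin M → Prop) [DecidablePred P],
      E₂.filter (fun e => ∃ q ∈ e, P q) ⊆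
        ((univ.filter Q).filter fun t => P t.1).image fun t => {t.1, t.2} := by
    intro P _ e he
    obtain ⟨he, q, hq, hP⟩ := mem_filter.1 he
    obtain ⟨⟨t₁, t₂⟩, ht, rfl⟩ := mem_image.1 he
    rcases mem_insert.1 hq with rfl | hq
    · exact mem_image.2 ⟨_, mem_filter.2 ⟨ht, hP⟩, rfl⟩
    · rw [mem_singleton] at hq
      rw [hq] at hP
      exact mem_image.2 ⟨(t₂, t₁), mem_filter.2
        ⟨mem_filter.2 ⟨mem_univ _, hQ _ _ (mem_filter.1 ht).2⟩, hP⟩, pair_comm _ _⟩
  have hgood : ∀ {r v : V}, ¬ Bad H wo L r v →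
      (H.neighborFinset r ∩ H.neighborFinset v).card ≤ L := fun h => by
    by_contra hc
    exact h (.inr (.inr (by omega)))
  -- the two weights
  have hw₁ : ∀ (T : Finset (Finset (Fin M × Fin M))), (∀ e ∈ T, e ∈ E₁) → 32 * T.card ≤ M →
      ∑ e ∈ T, weight e ≤ 1 / 32 := by
    intro T hT hc
    rw [sum_congr rfl fun e he => show weight e = 1 / (M : ℝ) by
      obtain ⟨p, -, rfl⟩ := mem_image.1 (hT e he)
      rw [weight, if_pos (card_singleton p)], sum_const, nsmul_eq_mul]
    rcases Nat.eq_zero_or_pos M with h0 | h0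
    · subst h0
      simp
    · rw [mul_one_div, div_le_iff₀ (by exact_mod_cast h0)]
      have : (32 : ℝ) * T.card ≤ M := by exact_mod_cast hc
      linarith
  have hw₂ : ∀ (T : Finset (Finset (Fin M × Fin M))), (∀ e ∈ T, e ∈ E₂) →
      T.card ≤ d * d * L → ∑ e ∈ T, weight e ≤ 1 / 32 := by
    intro T hT hc
    rw [sum_congr rfl fun e he => show weight e = 1 / ((M : ℝ) * (M - 1 : ℕ)) by
      obtain ⟨t, ht, rfl⟩ := mem_image.1 (hT e he)
      have hne : t.1 ≠ t.2 := fun h => (mem_filter.1 ht).2.1 (congrArg Prod.fst h)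
      rw [weight, if_neg (by rw [card_pair hne]; omega)], sum_const, nsmul_eq_mul]
    rcases Nat.lt_or_ge M 2 with h0 | h0
    · rw [show M - 1 = 0 by omega]
      simp
    have hpos : (0 : ℝ) < (M : ℝ) * (M - 1 : ℕ) := by
      exact_mod_cast Nat.mul_pos (by omega : 0 < M) (by omega : 0 < M - 1)
    rw [mul_one_div, div_le_iff₀ hpos]
    have hLM : L * M ≤ 64 * d ^ 2 := Nat.div_mul_le_self _ _
    have h1 : T.card * M ≤ 64 * d ^ 4 := by
      calc T.card * M ≤ d * d * L * M := Nat.mul_le_mul_right M hc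
        _ = d * d * (L * M) := by ring
        _ ≤ d * d * (64 * d ^ 2) := Nat.mul_le_mul_left _ hLM
        _ = 64 * d ^ 4 := by ring
    have h2 : 32 * T.card * M ≤ M * (M - 1) * M := by
      have e1 : M * M * M ≤ M * M * (2 * (M - 1)) := Nat.mul_le_mul_left _ (by omega)
      have e2 : M ^ 3 = M * M * M := by ring
      have e3 : M * M * (2 * (M - 1)) = 2 * (M * (M - 1) * M) := by ring
      have e4 : 32 * T.card * M = 32 * (T.card * M) := by ring
      omega
    have h3 : 32 * T.card ≤ M * (M - 1) := Nat.le_of_mul_le_mul_right h2 (by omega)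
    have : (32 : ℝ) * T.card ≤ (M : ℝ) * (M - 1 : ℕ) := by exact_mod_cast h3
    linarith
  have hsplit : ∀ (P : Fin M × Fin M → Prop) [DecidablePred P],
      32 * ((univ.filter fun p => Bad H wo L (a p.1) (b p.2)).filter P).card ≤ M →
      (((univ.filter Q).filter fun t => P t.1)).card ≤ d * d * L →
      ∑ e ∈ (E₁ ∪ E₂).filter (fun e => ∃ q ∈ e, P q), weight e ≤ 1 / 16 := by
    intro P _ h1 h2
    rw [filter_union]
    have hdis : Disjoint (E₁.filter fun e => ∃ q ∈ e, P q) (E₂.filter fun e => ∃ q ∈ e, P q) := by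
      refine disjoint_left.2 fun e he he' => ?_
      obtain ⟨p, -, rfl⟩ := mem_image.1 (mem_filter.1 he).1
      obtain ⟨t, ht, h⟩ := mem_image.1 (mem_filter.1 he').1
      have hne : t.1 ≠ t.2 := fun h => (mem_filter.1 ht).2.1 (congrArg Prod.fst h)
      have := congrArg Finset.card h
      rw [card_pair hne, card_singleton] at this
      omega
    rw [sum_union hdis]
    have c1 := hw₁ (E₁.filter fun e => ∃ q ∈ e, P q) (fun e he => (mem_filter.1 he).1) (by
      refine le_trans (Nat.mul_le_mul_left 32 ?_) h1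
      refine le_trans (card_le_card (t := ((univ.filter fun p => Bad H wo L (a p.1) (b p.2)).filter
        P).image fun p => ({p} : Finset (Fin M × Fin M))) fun e he => ?_) card_image_le
      obtain ⟨he, q, hq, hP⟩ := mem_filter.1 he
      obtain ⟨p, hp, rfl⟩ := mem_image.1 he
      rw [mem_singleton] at hq
      subst hq
      exact mem_image.2 ⟨_, mem_filter.2 ⟨hp, hP⟩, rfl⟩)
    have c2 := hw₂ (E₂.filter fun e => ∃ q ∈ e, P q) (fun e he => (mem_filter.1 he).1)
      (((card_le_card (hfirst P)).trans card_image_le).trans h2)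
    linarith
  obtain ⟨σ, hσ⟩ := exists_perm_avoiding (E₁ ∪ E₂) (fun e he => by
      rcases mem_union.1 he with he | he
      · obtain ⟨⟨u, c⟩, -, rfl⟩ := mem_image.1 he
        exact .inl ⟨u, c, rfl⟩
      · obtain ⟨⟨⟨u, c⟩, x, y⟩, ht, rfl⟩ := mem_image.1 he
        exact .inr ⟨u, c, x, y, (mem_filter.1 ht).2.1, (mem_filter.1 ht).2.2.1, rfl⟩)
    (fun u => hsplit (fun q => q.1 = u) (by
      refine le_trans (Nat.mul_le_mul_left 32 ?_) (card_bad hd hwo hM (a u))
      refine card_le_card_of_injOn (fun p => b p.2) ?_ ?_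
      · intro p hp
        simp only [mem_coe, mem_filter, mem_univ, true_and] at hp ⊢
        rw [← hp.2]
        exact hp.1
      · intro p hp q hq h
        simp only [mem_coe, mem_filter] at hp hq
        exact Prod.ext (hp.2.trans hq.2.symm) (hb h)) (by
      refine le_trans ?_ (card_triples hd ha hb hb L (a u))
      refine card_le_card_of_injOn (fun t => (t.2.1, t.2.2, t.1.2)) ?_ ?_
      · intro t ht
        simp only [mem_coe, mem_filter, mem_univ, true_and] at ht ⊢
        obtain ⟨⟨-, -, -, h4, h5, h6, h7, h8⟩, rfl⟩ := ht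
        exact ⟨h5, h6, hgood h4, h7, h8⟩
      · intro t ht s hs h
        simp only [mem_coe, mem_filter] at ht hs
        simp only [Prod.mk.injEq] at h
        exact Prod.ext (Prod.ext (ht.2.trans hs.2.symm) h.2.2) (Prod.ext h.1 h.2.1)))
    (fun c => hsplit (fun q => q.2 = c) (by
      refine le_trans (Nat.mul_le_mul_left 32 ?_) (card_bad hd hwo hM (b c))
      refine card_le_card_of_injOn (fun p => a p.1) ?_ ?_
      · intro p hp
        simp only [mem_coe, mem_filter, mem_univ, true_and] at hp ⊢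
        rw [← hp.2]
        exact hp.1.symm
      · intro p hp q hq h
        simp only [mem_coe, mem_filter] at hp hq
        exact Prod.ext (ha h) (hp.2.trans hq.2.symm)) (by
      refine le_trans ?_ (card_triples hd ha hb ha L (b c))
      refine card_le_card_of_injOn (fun t => (t.2.1, t.2.2, t.1.1)) ?_ ?_
      · intro t ht
        simp only [mem_coe, mem_filter, mem_univ, true_and] at ht ⊢
        obtain ⟨⟨-, -, -, h4, h5, h6, h7, h8⟩, rfl⟩ := ht
        exact ⟨h7, h8, hgood h4, h5, h6⟩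
      · intro t ht s hs h
        simp only [mem_coe, mem_filter] at ht hs
        simp only [Prod.mk.injEq] at h
        exact Prod.ext (Prod.ext h.2.2 (ht.2.trans hs.2.symm)) (Prod.ext h.1 h.2.1)))
  have hgoodσ : ∀ i, ¬ Bad H wo L (a i) (b (σ i)) := fun i hbad =>
    hσ {(i, σ i)} (mem_union_left _ (mem_image.2 ⟨_, mem_filter.2 ⟨mem_univ _, hbad⟩, rfl⟩))
      (by simp [Has])
  refine ⟨σ, fun i => ⟨fun h => hgoodσ i (.inl h), fun w hw h => hgoodσ i (.inr (.inl ⟨w, hw, h⟩))⟩,
    fun i j hij h => ?_⟩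
  refine hσ {(i, σ i), (j, σ j)} (mem_union_right _ (mem_image.2 ⟨((i, σ i), (j, σ j)),
    mem_filter.2 ⟨mem_univ _, hij, fun e => hij (σ.injective e), hgoodσ i, hgoodσ j, h⟩, rfl⟩))
    ?_
  simp [Has]

end Vale.Agent.P060
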